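import Vale.Agent.P284.H977.K.KG9

/-! # P284, theorem CY (helper894): assembly for all groups, without residual finiteness -/

open scoped Manifold ContDiff Topology Pointwise
open Filter Set Metric

noncomputable section

namespace Vale.Agent.P284.H894.C

open Vale.Agent.P272.K Vale.Agent.P284.H248 Vale.Agent.P284.H894 Vale.Agent.P284.H894.G
  Vale.Agent.P284.H35.K Vale.Agent.P284.H622 Vale.Agent.P284.H409.K Vale.Agent.P284.H977.K

/-- as `KG6Concl`, for all groups -/
def CG6Concl : Prop :=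
  ∀ (n : ℕ) (X : Type) [TopologicalSpace X] [T2Space X] [CompactSpace X] [ConnectedSpace X]
    [ChartedSpace (Cm n) X] [IsManifold 𝓘(ℂ, Cm n) ω X]
    (w : Chart n X → Cm n → Matrix (Fin n) (Fin n) ℂ), IsKahler w →
    ∀ (E Γ : Type) [TopologicalSpace E] [ConnectedSpace E] [Group Γ]
      [MulAction Γ E] (p : E → X),
    IsGalois Γ p → ∀ (S : Set Γ), S.Finite → ¬ Subexp S → ∀ (y : E), ∀ W ∈ 𝓝 y,
    ∃ t ∈ S, ∃ u : E → ℝ, IsPsh (n := n) p u ∧ (∀ y, 0 ≤ u y ∧ u y ≤ 1) ∧
      ∃ y' ∈ W, u y < u (t • y')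

/-- as `KFinal`, for all quotients -/
def CFinal : Prop :=
  ∀ (n : ℕ) (X : Type) [TopologicalSpace X] [T2Space X] [CompactSpace X] [ConnectedSpace X]
    [ChartedSpace (Cm n) X] [IsManifold 𝓘(ℂ, Cm n) ω X]
    (w : Chart n X → Cm n → Matrix (Fin n) (Fin n) ℂ), IsKahler w →
    ∀ (U : Set X) (x : X) (Q : Set X), IsOpen U → x ∈ U →
    (∀ c : Path x x, ∃ c' : Path x x, c.Homotopic c' ∧ ∀ t, c' t ∈ U) →
    Q.Countable → (∀ y ∈ U, ∃ q ∈ Q, Chain n X y q) →
    ∀ (R : Type) [Group R] (q : FundamentalGroup X x →* R),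
    Function.Surjective q → SubexpGrowth R

/-- The final step: Kähler manifolds connected by entire curves (adapted from helper977's KG9 and
helper622's G9). -/
theorem cg9 (h6 : CG6Concl) : CFinal := by
  intro n X iT iT2 iC iCn iCh iM w hw U x Q hUo hx hU hQ hQU R gR q hq
  obtain ⟨M, hM⟩ := Vale.Agent.P300.H673.exists_openEmbedding (Cm n) X
  obtain ⟨Y, Γ, tY, gΓ, aΓ, π, hsc, ht2, hcont, hfree, hcov, hsurj, horb⟩ :=
    Vale.Agent.P223.X.U.main M X hM
  have hcont' : ∀ γ : Γ, Continuous fun y : Y => γ • y := hcont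
  have qc := Vale.Agent.P223.R2.H968.Lift.quot π hcont hfree hcov hsurj horb
  obtain ⟨y0, rfl⟩ := hsurj x
  have e : FundamentalGroup X (π y0) ≃* Γᵐᵒᵖ :=
    qc.fundamentalGroupEquiv (⟨y0, rfl⟩ : π ⁻¹' {π y0})
  have hG : IsGalois Γ (π : Y → X) := ⟨hcov, hsurj, hcont', hfree, horb⟩
  -- the covering of the quotient
  let f : Γ →* R := q.comp ((MulEquiv.inv' Γ).trans e.symm).toMonoidHom
  have hf : Function.Surjective f :=
    hq.comp ((MulEquiv.inv' Γ).trans e.symm).surjective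
  let N : Subgroup Γ := f.ker
  let _ := actQ Y N
  have hGN : IsGalois (Γ ⧸ N) (prQ hG N) := galQ hG
  have ef : Γ ⧸ N ≃* R := QuotientGroup.quotientKerEquivOfSurjective f hf
  have hpcY : PathConnectedSpace Y := inferInstance
  have hpc : PathConnectedSpace (Qt Y N) :=
    (mkQ_surj (N := N) (E := Y)).pathConnectedSpace mkQ_cont
  have : ConnectedSpace (Qt Y N) := inferInstance
  have hΓ : Countable (Γ ⧸ N) := by
    obtain ⟨C, -⟩ := H35.A9.exists_shsK n X w hw (Qt Y N) (Γ ⧸ N) (prQ hG N) hGN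
    exact countable_of_fg (H35.W.coc_fg C)
  intro S0 hS0
  refine subexp_of_image ef.symm.toMonoidHom ef.symm.injective ?_
  have hS : (ef.symm.toMonoidHom '' S0).Finite := hS0.image _
  set S := ef.symm.toMonoidHom '' S0 with hSdef
  by_contra hexp
  set y1 : Qt Y N := mkQ N y0 with hy1
  have hp1 : prQ hG N y1 = π y0 := rfl
  -- the component
  have hlc : LocallyConnectedSpace (Qt Y N) :=
    locallyConnected (n := n) hGN.cov.isLocalHomeomorph
  have hVo : IsOpen (connectedComponentIn (prQ hG N ⁻¹' U) y1) :=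
    (hUo.preimage hGN.cov.continuous).connectedComponentIn
  have hVp : IsPreconnected (connectedComponentIn (prQ hG N ⁻¹' U) y1) :=
    isPreconnected_connectedComponentIn
  have hV0 : ∀ t : Γ ⧸ N, t • y1 ∈ connectedComponentIn (prQ hG N ⁻¹' U) y1 := fun t =>
    mem_comp hGN.cov ((hGN.orb _ _).2 ⟨t, rfl⟩).symm hU
  have hW : (⋂ t ∈ S, (fun y : Qt Y N => t • y) ⁻¹' connectedComponentIn (prQ hG N ⁻¹' U) y1) ∈
      𝓝 y1 := by
    rw [biInter_mem hS]
    exact fun t _ => (hGN.cont t).continuousAt.preimage_mem_nhds (hVo.mem_nhds (hV0 t))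
  obtain ⟨t, ht, u, hu, hu01, y', hy', hlt⟩ :=
    h6 n X w hw (Qt Y N) (Γ ⧸ N) (prQ hG N) hGN S hS hexp y1 _ hW
  have hy'V : t • y' ∈ connectedComponentIn (prQ hG N ⁻¹' U) y1 := by
    have := mem_iInter₂.1 hy' t ht
    exact this
  have hb : ∃ B : ℝ, ∀ y, |u y| ≤ B :=
    ⟨1, fun y => abs_le.2 ⟨by linarith [(hu01 y).1], (hu01 y).2⟩⟩
  have hcount : (u '' connectedComponentIn (prQ hG N ⁻¹' U) y1).Countable := by
    have hfib : (prQ hG N ⁻¹' Q).Countable := by
      rw [← biUnion_of_singleton Q, preimage_iUnion₂]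
      refine hQ.biUnion fun q _ => ?_
      rcases (prQ hG N ⁻¹' {q}).eq_empty_or_nonempty with h | ⟨z, hz⟩
      · rw [h]; exact countable_empty
      · refine (countable_range fun γ : Γ ⧸ N => γ • z).mono fun z' hz' => ?_
        have h7 : prQ hG N z = prQ hG N z' :=
          (mem_singleton_iff.1 hz).trans (mem_singleton_iff.1 hz').symm
        obtain ⟨γ, hγ⟩ := (hGN.orb _ _).1 h7
        exact ⟨γ, hγ⟩
    refine (hfib.image u).mono ?_
    rintro _ ⟨y, hy, rfl⟩
    have hyU : prQ hG N y ∈ U := by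
      have := connectedComponentIn_subset (prQ hG N ⁻¹' U) y1 hy
      exact this
    obtain ⟨q, hq, hch⟩ := hQU _ hyU
    obtain ⟨z, hz, huz⟩ := H622.g8Stmt H427.g7Stmt n X (Qt Y N) (prQ hG N) hGN.cov hGN.surj y q hch
    exact ⟨z, by show prQ hG N z ∈ Q; rw [hz]; exact hq, huz u hu hb⟩
  have h9 := H427.g11Stmt H427.g10Stmt n X (Qt Y N) (prQ hG N) hGN.cov u hu hb _ hVo hVp hcount y1
    (by simpa using hV0 1) _ hy'V
  linarith

end Vale.Agent.P284.H894.C
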